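import Vale.Agent.P042P.Stmt

set_option autoImplicit false

/-!
P042: one exponent for the integer clause and the prime clause.
-/

namespace Vale.Agent.P042P

open Polynomial Vale.Agent.P042

theorem weaken {x C c c' : ℝ} {N : ℕ} (hN : 1 ≤ N) (hC : 0 < C) (hc : c' ≤ c)
    (h : x ≤ C * (N : ℝ) ^ (1 - c)) : x ≤ C * (N : ℝ) ^ (1 - c') := by
  have h1 : (1 : ℝ) ≤ N := by exact_mod_cast hN
  exact h.trans (mul_le_mul_of_nonneg_left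
    (Real.rpow_le_rpow_of_exponent_le h1 (by linarith)) hC.le)

theorem both_of
    (h1 : ∀ k : ℕ, 2 ≤ k → ∃ c : ℝ, 0 < c ∧ ∀ h : ℤ[X], h.natDegree = k →
      0 < h.leadingCoeff → Intersective h →
      ∃ C : ℝ, 0 < C ∧ ∀ N : ℕ, 1 ≤ N → (Vale.Agent.P042.rMax h N : ℝ) ≤ C * (N : ℝ) ^ (1 - c))
    (h2 : PrimeClause) (k : ℕ) (hk : 2 ≤ k) : ∃ c : ℝ, 0 < c ∧
    (∀ h : ℤ[X], h.natDegree = k → 0 < h.leadingCoeff → Intersective h →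
      ∃ C : ℝ, 0 < C ∧ ∀ N : ℕ, 1 ≤ N →
        (Vale.Agent.P042.rMax h N : ℝ) ≤ C * (N : ℝ) ^ (1 - c)) ∧
    (∀ h : ℤ[X], h.natDegree = k → 0 < h.leadingCoeff → PrimeIntersective h →
      ∃ C : ℝ, 0 < C ∧ ∀ N : ℕ, 1 ≤ N → (rMaxPrime h N : ℝ) ≤ C * (N : ℝ) ^ (1 - c)) := by
  obtain ⟨c1, hc1, H1⟩ := h1 k hk
  obtain ⟨c2, hc2, H2⟩ := h2 k hk
  refine ⟨min c1 c2, lt_min hc1 hc2, fun h a b c => ?_, fun h a b c => ?_⟩
  · obtain ⟨C, hC, H⟩ := H1 h a b c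
    exact ⟨C, hC, fun N hN => weaken hN hC (min_le_left _ _) (H N hN)⟩
  · obtain ⟨C, hC, H⟩ := H2 h a b c
    exact ⟨C, hC, fun N hN => weaken hN hC (min_le_right _ _) (H N hN)⟩

end Vale.Agent.P042P
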