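import Vale.Agent.P042P.Frame

set_option autoImplicit false

/-!
P042, prime arguments: the contradiction at one state and the generic core.
-/

namespace Vale.Agent.P042P

open Polynomial Finset Vale.Agent.P042 Vale.Agent.P042.SS Vale.Agent.P042.TT Vale.Agent.P042.UU
open Vale.Agent.P042.H739 (Fs comp_natDegree comp_lead comp_content comp_bound)

theorem fer_comp (f : ℤ[X]) (m : ℕ) (r : ℤ) :
    Vale.Agent.P042.H74.fer f m r = f.comp (C r + C (m : ℤ) * X) := by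
  unfold Vale.Agent.P042.H74.fer
  rw [taylor_apply, comp_assoc]
  congr 1
  simp only [add_comp, X_comp, C_comp]
  ring

theorem cop_fer {u v z : ℤ} {q : ℕ} (h : IsCoprime u v)
    (hq : ∀ p : ℕ, p.Prime → p ∣ q → (p : ℤ) ∣ v) : IsCoprime (u + v * z) (v * q) := by
  have h1 : IsCoprime (u + v * z) v := h.add_mul_left_left z
  refine h1.mul_right ?_
  rw [Int.isCoprime_iff_gcd_eq_one]
  by_contra hne
  obtain ⟨p, hp, hpg⟩ := Nat.exists_prime_and_dvd hne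
  have h2 : (p : ℤ) ∣ u + v * z := (Int.natCast_dvd_natCast.2 hpg).trans (Int.gcd_dvd_left _ _)
  have h3 : (p : ℤ) ∣ (q : ℤ) := (Int.natCast_dvd_natCast.2 hpg).trans (Int.gcd_dvd_right _ _)
  have h4 := h1.isUnit_of_dvd' h2 (hq p hp (by exact_mod_cast h3))
  exact (Nat.prime_iff_prime_int.1 hp).not_isUnit h4

theorem uv_bound {h : PL} {lam0 : ℕ → ℕ} {r : ℕ → ℤ} {Hh : ℕ → PL} {R d : ℕ}
    (hAux : AuxData h lam0 r Hh R) (hv1 : 1 ≤ h.v) (hd1 : 1 ≤ d) :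
    1 ≤ (Hh d).v ∧ |((Hh d).u : ℝ)| ≤ (|(h.u : ℝ)| + h.v) * d ∧
      ((Hh d).v : ℝ) ≤ (|(h.u : ℝ)| + h.v) * d := by
  have hd1r : (1 : ℝ) ≤ d := by exact_mod_cast hd1
  have hv0 : (1 : ℝ) ≤ h.v := by exact_mod_cast hv1
  have habs : 0 ≤ |(h.u : ℝ)| := abs_nonneg _
  refine ⟨?_, ?_, ?_⟩
  · rw [hAux.hv d hd1]
    have h1 : (1 : ℤ) ≤ d := by exact_mod_cast hd1
    nlinarith
  · rw [hAux.hu d hd1]
    push_cast
    refine (abs_add_le _ _).trans ?_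
    obtain ⟨h1, h2⟩ := hAux.old.hr d hd1
    have h3 : |(r d : ℝ)| ≤ d := by
      have h4 : -(d : ℝ) < r d := by exact_mod_cast h1
      have h5 : (r d : ℝ) ≤ 0 := by exact_mod_cast h2
      rw [abs_le]
      constructor <;> linarith
    rw [abs_mul, abs_of_nonneg (by linarith : (0 : ℝ) ≤ h.v), add_mul]
    have h4 : (h.v : ℝ) * |(r d : ℝ)| ≤ h.v * d := mul_le_mul_of_nonneg_left h3 (by linarith)
    nlinarith
  · rw [hAux.hv d hd1]
    push_cast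
    nlinarith

/-- the contradiction, for one state -/
theorem last_step {GW : GwTy} {k R K : ℕ} (hk : 1 ≤ k) {f : PL} {κ κ0 κ1 c1 thQ B Bu P : ℝ}
    {N' : ℕ} {G : ℤ → ℝ} (hfk : f.natDegree = k) (hlead : 0 < f.leadingCoeff) (hR : 1 ≤ R)
    (hcont : ∀ g : ℤ, (∀ j : ℕ, 1 ≤ j → g ∣ f.coeff j) → g ∣ (R : ℤ))
    (hB0 : 0 ≤ B) (hB : ∀ j : ℕ, |(f.coeff j : ℝ)| ≤ B)
    (hbase : Base6 f κ P N' G) (hP1 : 1 ≤ P) (hκ1 : κ ≤ κ1)
    (hPc : Real.log 8 < (c1 - 2 * κ0) * P)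
    (hRP : (R : ℝ) * Real.exp (k * (κ0 * P)) ≤ Real.exp (κ1 * P))
    (hBP : ((k + 1 : ℕ) : ℝ) * 2 ^ k * Real.exp (k * (κ0 * P)) * B ≤ Real.exp (κ1 * P))
    (hcop : IsCoprime f.u f.v) (hv1 : 1 ≤ f.v) (hK : ∀ p : ℕ, p.Prime → p ≤ K → (p : ℤ) ∣ f.v)
    (hu : |(f.u : ℝ)| ≤ Bu) (hv : (f.v : ℝ) ≤ Bu)
    (hBu : 2 * Bu * Real.exp (κ0 * P) ≤ Real.exp (κ1 * P))
    (hAN : ANat GW k κ1 c1 thQ P) (hlow : LOWat GW K κ0 thQ P f N' G) : False := by
  obtain ⟨q0, z0, H, h0, z, G1, G2, hq0, hq0P, hq0K, hz0, h8, h16, hh0, hh, hz, hzN, hG1G, hG2G, hs1,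
    hs2, hsq1, hsq2, hlow⟩ := hlow
  obtain ⟨g, hg0⟩ : ∃ g : PL, g = fer f q0 z0 := ⟨_, rfl⟩
  rw [← hg0] at hlow
  have hg : g.toPolynomial = f.toPolynomial.comp (C (z0 : ℤ) + C (q0 : ℤ) * X) := by
    rw [hg0, fer_toP, fer_comp]
  have hgdeg : g.natDegree = k := by rw [hg, comp_natDegree _ z0 q0 hq0, hfk]
  have hglead : 0 < g.leadingCoeff := by
    rw [hg]
    exact comp_lead _ z0 q0 hq0 hlead
  have hgcont : ∀ g' : ℤ, (∀ j : ℕ, 1 ≤ j → g' ∣ g.coeff j) → g' ∣ ((R * q0 ^ k : ℕ) : ℤ) := by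
    rw [hg, ← hfk]
    exact comp_content _ z0 q0 R hcont
  have hq0r : (1 : ℝ) ≤ q0 := by exact_mod_cast hq0
  have hqk : (q0 : ℝ) ^ k ≤ Real.exp (k * (κ0 * P)) := by
    rw [Real.exp_nat_mul]
    exact pow_le_pow_left₀ (by linarith) hq0P k
  have hRq : ((R * q0 ^ k : ℕ) : ℝ) ≤ Real.exp (κ1 * P) := by
    push_cast
    exact (mul_le_mul_of_nonneg_left hqk (Nat.cast_nonneg _)).trans hRP
  have hgB : ∀ j : ℕ, |(g.coeff j : ℝ)| ≤ Real.exp (κ1 * P) := fun j => by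
    rw [hg]
    refine (comp_bound _ k z0 q0 B hfk hz0 hq0 hB0 hB j).trans (le_trans ?_ hBP)
    refine mul_le_mul_of_nonneg_right ?_ hB0
    push_cast
    rw [mul_pow, ← mul_assoc]
    exact mul_le_mul_of_nonneg_left hqk (by positivity)
  have hv0 : (1 : ℝ) ≤ f.v := by exact_mod_cast hv1
  have hz0r : (z0 : ℝ) ≤ q0 := by exact_mod_cast hz0
  have hz00 : (0 : ℝ) ≤ z0 := Nat.cast_nonneg _
  have hBu0 : 0 ≤ Bu := by linarith
  have hvq : (f.v : ℝ) * q0 ≤ Bu * Real.exp (κ0 * P) :=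
    mul_le_mul hv hq0P (by linarith) hBu0
  have hgv : (g.v : ℝ) ≤ Real.exp (κ1 * P) := by
    rw [hg0, fer_v]
    push_cast
    have h1 : 0 ≤ Bu * Real.exp (κ0 * P) := by positivity
    linarith
  have hgu : |(g.u : ℝ)| ≤ Real.exp (κ1 * P) := by
    rw [hg0, fer_u]
    push_cast
    refine (abs_add_le _ _).trans ?_
    have h1 : |(f.v : ℝ) * z0| ≤ Bu * Real.exp (κ0 * P) := by
      rw [abs_of_nonneg (by positivity)]
      exact (mul_le_mul_of_nonneg_left hz0r (by linarith)).trans hvq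
    have h2 : Bu * 1 ≤ Bu * Real.exp (κ0 * P) :=
      mul_le_mul_of_nonneg_left (hq0r.trans hq0P) hBu0
    linarith
  have hgv1 : 1 ≤ g.v := by
    rw [hg0, fer_v]
    have h1 : (1 : ℤ) ≤ q0 := by exact_mod_cast hq0
    nlinarith
  have hgcop : IsCoprime g.u g.v := by
    rw [hg0, fer_u, fer_v]
    exact cop_fer hcop fun p hp hd => hK p hp (hq0K p hp hd)
  have hN'lo : Real.exp ((1 - κ1) * P) ≤ N' :=
    le_trans (Real.exp_le_exp.2 (mul_le_mul_of_nonneg_right (by linarith) (by linarith))) hbase.lo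
  have hN'0 : (0 : ℝ) < N' := lt_of_lt_of_le (Real.exp_pos _) hbase.lo
  have hdf : ∀ n m : ℤ, (G1 n ≠ 0 ∨ G2 n ≠ 0) → (G1 m ≠ 0 ∨ G2 m ≠ 0) → ∀ x : ℕ, 1 ≤ x → pr g x →
      n - m = g.eval (x : ℤ) → n = m := by
    intro n m hn hm x hx hpr he
    have hn' : G n ≠ 0 := hn.elim (hG1G n) (hG2G n)
    have hm' : G m ≠ 0 := hm.elim (hG1G m) (hG2G m)
    refine hbase.df n m hn' hm' (z0 + q0 * x) ?_ ?_ ?_
    · have : 1 ≤ q0 * x := Nat.mul_pos hq0 hx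
      omega
    · rw [hg0, pr_fer] at hpr
      push_cast
      rw [add_comm]
      exact hpr
    · rw [he, hg, eval_comp]
      congr 1
      simp
  have hA := hAN (R * q0 ^ k) g N' H h0 z G1 G2 (Nat.mul_pos hR (pow_pos hq0 k)) hRq hgdeg hglead
    hgcont hgB hgcop hgv1 hgu hgv hN'lo hbase.hi h8 h16 hh0 hh hz hzN hs1 hs2 hdf
  have h5 := hlow.trans (hA.trans (mul_le_mul_of_nonneg_left
    (add_le_add hsq1 hsq2) (by positivity)))
  have h6 : Real.exp (-(κ0 * P)) * (N' : ℝ) ^ 2 ≤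
      (2 * Real.exp (-(c1 * P)) * Real.exp (κ0 * P)) * (N' : ℝ) ^ 2 :=
    h5.trans (le_of_eq (by ring))
  have h7 : Real.exp (-(κ0 * P)) ≤ 2 * Real.exp (-(c1 * P)) * Real.exp (κ0 * P) :=
    le_of_mul_le_mul_right h6 (by positivity)
  have h2 : (2 : ℝ) = Real.exp (Real.log 2) := (Real.exp_log (by norm_num)).symm
  rw [h2, ← Real.exp_add, ← Real.exp_add, Real.exp_le_exp] at h7
  have h8' : Real.log 2 ≤ Real.log 8 := Real.log_le_log (by norm_num) (by norm_num)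
  linarith

/-- the generic core: `dl` is the allowed density defect -/
theorem core_of {GW : GwTy} {h : PL} {lam0 : ℕ → ℕ} {r : ℕ → ℤ} {Hh : ℕ → PL} {R k K : ℕ}
    (hAux : AuxData h lam0 r Hh R) (hk : h.natDegree = k) (hk2 : 2 ≤ k)
    (hpos : 0 < h.leadingCoeff) (hR : 1 ≤ R) (hv1 : 1 ≤ h.v)
    (hK : ∀ p : ℕ, p.Prime → p ≤ K → (p : ℤ) ∣ h.v)
    (hcop : ∀ d : ℕ, 1 ≤ d → IsCoprime (Hh d).u (Hh d).v) {κ κ0 κ1 c1 thQ Pa Pb Pc : ℝ} (hc1 : 0 < c1)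
    (hκ1 : 0 < κ1) (hκ : 0 < κ) (hκκ0 : κ ≤ κ0) (hκ0c : κ0 ≤ c1 / 4)
    (hκ0k : κ0 ≤ κ1 / (4 * k)) (dl : ℝ → ℝ) (Sp : ℝ → PL → ℕ → (ℤ → ℝ) → Prop)
    (hAN : ∀ P : ℝ, Pa ≤ P → ANat GW k κ1 c1 thQ P)
    (hLow : ∀ P : ℝ, Pb ≤ P → ∀ (f : PL) (N' : ℕ) (G : ℤ → ℝ), f.natDegree = k →
      0 < f.leadingCoeff → (∀ g : ℤ, (∀ j : ℕ, 1 ≤ j → g ∣ f.coeff j) → g ∣ (R : ℤ)) →
      (∀ j : ℕ, |(f.coeff j : ℝ)| ≤ Real.exp (2 * k * κ * P)) →
      Base6 f κ P N' G → Sp P f N' G → LOWat GW K κ0 thQ P f N' G)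
    (hState : ∀ P : ℝ, Pc ≤ P → STat h Hh κ (dl P) P (Sp P)) :
    ∃ P0 : ℝ, ∀ N : ℕ, 1 ≤ N → P0 ≤ Real.log N →
      (rMax h N : ℝ) ≤ N * Real.exp (-dl (Real.log N)) := by
  classical
  have hk1 : 1 ≤ k := by omega
  have hk' : 1 ≤ h.natDegree := by omega
  obtain ⟨S, hS, hcoef⟩ := hAux.old.coeff_bound hk' hpos
  have hkr : (1 : ℝ) ≤ k := by exact_mod_cast hk1
  have hκ0pos : 0 < κ0 := lt_of_lt_of_le hκ hκκ0
  have hkκ0 : k * κ0 ≤ κ1 / 4 := by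
    have h1 := hκ0k
    rw [le_div_iff₀ (by positivity)] at h1
    linarith
  have hkκ : k * κ ≤ κ1 / 4 := le_trans (mul_le_mul_of_nonneg_left hκκ0 (by linarith)) hkκ0
  have hκκ1 : κ ≤ κ1 := by
    have h1 : 1 * κ ≤ k * κ := mul_le_mul_of_nonneg_right hkr hκ.le
    linarith
  have hSr : (1 : ℝ) ≤ S := by exact_mod_cast hS
  obtain ⟨M, hM⟩ : ∃ x : ℝ, x = ((k + 1 : ℕ) : ℝ) * 2 ^ k * ((S : ℝ) * (S * 2 ^ k)) := ⟨_, rfl⟩
  have hMpos : 0 < M := by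
    rw [hM]
    positivity
  have hRr : (1 : ℝ) ≤ R := by exact_mod_cast hR
  obtain ⟨M2, hM2⟩ : ∃ x : ℝ, x = (S : ℝ) * (S * 2 ^ k) := ⟨_, rfl⟩
  have hM2pos : 0 < M2 := by
    rw [hM2]
    positivity
  obtain ⟨M3, hM3⟩ : ∃ x : ℝ, x = |(h.u : ℝ)| + h.v := ⟨_, rfl⟩
  have hv0 : (1 : ℝ) ≤ h.v := by exact_mod_cast hv1
  have hM3pos : 0 < 2 * M3 := by
    rw [hM3]
    positivity
  obtain ⟨Pd, hPd⟩ : ∃ x : ℝ, x = max (max (max (2 * Real.log M / κ1) ((Real.log 8 + 1) * 2 / c1))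
    (max (2 * Real.log R / κ1) (Real.log M2 / (k * κ)))) (2 * Real.log (2 * M3) / κ1) := ⟨_, rfl⟩
  refine ⟨max (max (max Pa Pb) (max Pc Pd)) 1, fun N hN hge => ?_⟩
  obtain ⟨P, hP⟩ : ∃ x : ℝ, x = Real.log N := ⟨_, rfl⟩
  rw [← hP] at hge ⊢
  have hPa' : Pa ≤ P := (le_max_left _ _).trans ((le_max_left _ _).trans ((le_max_left _ _).trans hge))
  have hPb' : Pb ≤ P := (le_max_right _ _).trans ((le_max_left _ _).trans ((le_max_left _ _).trans hge))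
  have hPc' : Pc ≤ P := (le_max_left _ _).trans ((le_max_right _ _).trans ((le_max_left _ _).trans hge))
  have hPd' : Pd ≤ P := (le_max_right _ _).trans ((le_max_right _ _).trans ((le_max_left _ _).trans hge))
  have hP1 : 1 ≤ P := (le_max_right _ _).trans hge
  have hPp : 0 < P := by linarith
  rw [hPd] at hPd'
  have hd5' : 2 * Real.log (2 * M3) / κ1 ≤ P := (le_max_right _ _).trans hPd'
  replace hPd' := (le_max_left _ _).trans hPd'
  have hd1' : 2 * Real.log M / κ1 ≤ P := (le_max_left _ _).trans ((le_max_left _ _).trans hPd')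
  have hd2' : (Real.log 8 + 1) * 2 / c1 ≤ P :=
    (le_max_right _ _).trans ((le_max_left _ _).trans hPd')
  have hd3' : 2 * Real.log R / κ1 ≤ P := (le_max_left _ _).trans ((le_max_right _ _).trans hPd')
  have hd4' : Real.log M2 / (k * κ) ≤ P :=
    (le_max_right _ _).trans ((le_max_right _ _).trans hPd')
  rw [div_le_iff₀ hκ1] at hd1' hd3' hd5'
  rw [div_le_iff₀ hc1] at hd2'
  rw [div_le_iff₀ (by positivity)] at hd4'
  have hred : ∀ B : ℝ, 0 ≤ B → (∀ A0 : Finset ℤ, A0 ⊆ Icc (1 : ℤ) N → DiffFree h A0 →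
      (A0.card : ℝ) ≤ B) → (rMax h N : ℝ) ≤ B := by
    intro B hB hall
    have h1 : rMax h N ≤ ⌊B⌋₊ := by
      unfold rMax
      refine Finset.sup_le fun A0 hA0 => ?_
      rw [mem_filter, mem_powerset] at hA0
      exact Nat.le_floor (hall A0 hA0.1 hA0.2)
    exact (Nat.cast_le.2 h1).trans (Nat.floor_le hB)
  refine hred _ (by positivity) fun A0 hA0 hfree => ?_
  by_contra hcon
  rw [not_le] at hcon
  obtain ⟨d, N', G, hd1, hdle, hbase, hst⟩ :=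
    hState P hPc' N hN hP.symm A0 hA0 hfree (by rw [mul_comm]; exact hcon.le)
  have hfdeg : (Hh d).natDegree = k := (hAux.old.natDegree_H hk' d hd1).trans hk
  have hflead : 0 < (Hh d).leadingCoeff := hAux.old.lead_pos hk' hpos d hd1
  have hfcont := hAux.old.hgcd d hd1
  have hcoef' := hcoef d hd1
  rw [hk] at hcoef'
  have hX1 : (1 : ℝ) ≤ Real.exp (κ * P) := Real.one_le_exp (by positivity)
  obtain ⟨hB1, hBc⟩ := coeff_B k S d (Hh d).toPolynomial (Real.exp (κ * P)) hS hX1 hcoef'.1 hcoef'.2 (by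
    linarith)
  have hBeq : (S : ℝ) * (S * (2 * Real.exp (κ * P)) ^ k) = M2 * Real.exp (k * (κ * P)) := by
    rw [hM2, mul_pow, Real.exp_nat_mul]
    ring
  have hBc2 : ∀ j : ℕ, |((Hh d).coeff j : ℝ)| ≤ Real.exp (2 * k * κ * P) := by
    intro j
    refine (hBc j).trans ?_
    rw [hBeq]
    have h4 : M2 = Real.exp (Real.log M2) := (Real.exp_log hM2pos).symm
    rw [h4, ← Real.exp_add, Real.exp_le_exp]
    have h5 : P * (k * κ) = k * (κ * P) := by ring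
    have h6 : 2 * k * κ * P = 2 * (k * (κ * P)) := by ring
    rw [h6]
    rw [h5] at hd4'
    linarith
  have hlow := hLow P hPb' (Hh d) N' G hfdeg hflead hfcont hBc2 hbase hst
  obtain ⟨hw1, hw2, hw3⟩ := uv_bound hAux hv1 hd1
  rw [← hM3] at hw2 hw3
  have hM3d : M3 * d ≤ M3 * Real.exp (κ * P) :=
    mul_le_mul_of_nonneg_left hdle (by linarith only [hM3pos])
  refine last_step (Bu := M3 * Real.exp (κ * P)) hk1 hfdeg hflead hR hfcont (by linarith) hBc hbase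
    hP1 hκκ1 ?_ ?_ ?_ (hcop d hd1) ?_ ?_ ?_ ?_ ?_ (hAN P hPa') hlow
  · have h3 : c1 / 2 * P ≤ (c1 - 2 * κ0) * P :=
      mul_le_mul_of_nonneg_right (by linarith) (by linarith)
    linarith
  · have h4 : (R : ℝ) = Real.exp (Real.log R) := (Real.exp_log (by linarith)).symm
    rw [h4, ← Real.exp_add, Real.exp_le_exp]
    have h5 : k * κ0 * P ≤ κ1 / 4 * P := mul_le_mul_of_nonneg_right hkκ0 hPp.le
    have h6 : 0 < κ1 * P := mul_pos hκ1 hPp
    linarith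
  · have h3 : ((k + 1 : ℕ) : ℝ) * 2 ^ k * Real.exp (k * (κ0 * P)) *
        ((S : ℝ) * (S * (2 * Real.exp (κ * P)) ^ k)) =
        M * (Real.exp (k * (κ0 * P)) * Real.exp (k * (κ * P))) := by
      rw [hM, hBeq, hM2]
      ring
    rw [h3]
    have h4 : M = Real.exp (Real.log M) := (Real.exp_log hMpos).symm
    rw [h4, ← Real.exp_add, ← Real.exp_add, Real.exp_le_exp]
    have h5 : k * κ0 * P ≤ κ1 / 4 * P := mul_le_mul_of_nonneg_right hkκ0 hPp.le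
    have h6 : k * κ * P ≤ κ1 / 4 * P := mul_le_mul_of_nonneg_right hkκ hPp.le
    linarith
  · exact hw1
  · intro p hp hpK
    rw [hAux.hv d hd1]
    exact (hK p hp hpK).mul_right _
  · exact hw2.trans hM3d
  · exact hw3.trans hM3d
  · have h4 : 2 * M3 = Real.exp (Real.log (2 * M3)) := (Real.exp_log hM3pos).symm
    rw [← mul_assoc, h4, ← Real.exp_add, ← Real.exp_add, Real.exp_le_exp]
    have h5 : k * κ0 * P ≤ κ1 / 4 * P := mul_le_mul_of_nonneg_right hkκ0 hPp.le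
    have h6 : k * κ * P ≤ κ1 / 4 * P := mul_le_mul_of_nonneg_right hkκ hPp.le
    have h7 : 1 * (κ0 * P) ≤ k * (κ0 * P) := mul_le_mul_of_nonneg_right hkr (by positivity)
    have h8 : 1 * (κ * P) ≤ k * (κ * P) := mul_le_mul_of_nonneg_right hkr (by positivity)
    linarith only [h5, h6, h7, h8, hd5']

end Vale.Agent.P042P
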