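import Vale.Agent.P042.Bdl.B1
import Vale.Agent.P042P.Stmt

set_option autoImplicit false

/-!
P042, prime arguments: the local data at one prime, from a unit root, with the exact content
`p ^ s` of the auxiliary polynomials.
-/

namespace Vale.Agent.P042P

open Polynomial Vale.Agent.P042

/-- a root in the units of `ℤ_[p]` -/
theorem aux_unit_root (h : ℤ[X]) (hint : PrimeIntersective h) (p : ℕ) [hp : Fact p.Prime] :
    ∃ z : ℤ_[p], ‖z‖ = 1 ∧ (h.map (Int.castRingHom ℤ_[p])).eval z = 0 := by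
  have H : ∀ k : ℕ, ∃ t : ℤ, ¬ (p : ℤ) ∣ t ∧ ((p : ℤ) ^ k) ∣ h.eval t := by
    intro k
    obtain ⟨t, ht0, ht⟩ := hint (p ^ (k + 1)) (Nat.one_le_pow _ _ hp.out.pos)
    refine ⟨t, fun hd => ?_, (pow_dvd_pow _ (Nat.le_succ k)).trans (by exact_mod_cast ht)⟩
    have h1 : (p : ℤ) ∣ ((p ^ (k + 1) : ℕ) : ℤ) := by
      push_cast
      exact dvd_pow_self _ (by omega)
    have h2 := ht0.isUnit_of_dvd' hd h1
    exact (Nat.prime_iff_prime_int.1 hp.out).not_isUnit h2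
  choose t ht0 ht using H
  obtain ⟨z, φ, hφ, hlim⟩ := CompactSpace.tendsto_subseq (fun k => (t k : ℤ_[p]))
  refine ⟨z, ?_, ?_⟩
  · have h1 := hlim.norm
    have h2 : (fun n => ‖((fun k => (t k : ℤ_[p])) ∘ φ) n‖) = fun _ => (1 : ℝ) := by
      funext n
      simp only [Function.comp]
      rw [PadicInt.norm_intCast_eq_one_iff, isCoprime_comm]
      exact (Nat.prime_iff_prime_int.1 hp.out).coprime_iff_not_dvd.2 (ht0 _)
    rw [h2] at h1
    exact (tendsto_nhds_unique tendsto_const_nhds h1).symm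
  have hcont : Filter.Tendsto (fun n => (h.map (Int.castRingHom ℤ_[p])).eval
      ((fun k => (t k : ℤ_[p])) (φ n))) Filter.atTop
      (nhds ((h.map (Int.castRingHom ℤ_[p])).eval z)) :=
    ((h.map (Int.castRingHom ℤ_[p])).continuous.tendsto z).comp hlim
  have hzero : Filter.Tendsto (fun n => (h.map (Int.castRingHom ℤ_[p])).eval
      ((fun k => (t k : ℤ_[p])) (φ n))) Filter.atTop (nhds 0) := by
    rw [tendsto_zero_iff_norm_tendsto_zero]
    have hp1 : (1 : ℝ) < p := by exact_mod_cast hp.out.one_lt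
    have hgeo : Filter.Tendsto (fun n : ℕ => ((p : ℝ)⁻¹) ^ (φ n)) Filter.atTop (nhds 0) :=
      (tendsto_pow_atTop_nhds_zero_of_lt_one (by (clear * - hp1; positivity))
        (inv_lt_one_of_one_lt₀ hp1)).comp hφ.tendsto_atTop
    refine squeeze_zero (fun _ => norm_nonneg _) (fun n => ?_) hgeo
    have h1 : (h.map (Int.castRingHom ℤ_[p])).eval ((t (φ n) : ℤ) : ℤ_[p])
        = ((h.eval (t (φ n)) : ℤ) : ℤ_[p]) := by
      simp only [eval_intCast_map, Int.cast_eq, eq_intCast]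
    have h2 := (PadicInt.norm_int_le_pow_iff_dvd (p := p) (k := h.eval (t (φ n)))
      (n := φ n)).2 (by exact_mod_cast ht (φ n))
    simp only
    rw [h1]
    refine h2.trans (le_of_eq ?_)
    rw [zpow_neg, zpow_natCast, inv_pow]
  exact tendsto_nhds_unique hcont hzero

/-- The local statement at one prime, with the exact content. -/
theorem aux_localU (h : ℤ[X]) (hh : h ≠ 0) (hint : PrimeIntersective h) :
    ∃ R : ℤ, R ≠ 0 ∧ ∀ p : ℕ, p.Prime → ∃ (m s : ℕ) (a : ℕ → ℤ), 1 ≤ m ∧ m ≤ h.natDegree ∧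
      (p : ℤ) ^ s ∣ R ∧ (∀ v : ℕ, 1 ≤ v → ¬ (p : ℤ) ∣ a v) ∧
      (∀ v w : ℕ, v ≤ w → (p : ℤ) ^ v ∣ a w - a v) ∧
      (∀ (v : ℕ) (r d : ℤ), (p : ℤ) ^ v ∣ r - a v → ¬ (p : ℤ) ∣ d →
        (∀ j, (p : ℤ) ^ (v * m) ∣ (h.comp (C r + C ((p : ℤ) ^ v * d) * X)).coeff j) ∧
        (s ≤ v → ∀ j, (p : ℤ) ^ (v * m + s) ∣ (h.comp (C r + C ((p : ℤ) ^ v * d) * X)).coeff j) ∧
        (∀ (u : ℤ) (H : ℤ[X]), ¬ (p : ℤ) ∣ u →
          C ((p : ℤ) ^ (v * m) * u) * H = h.comp (C r + C ((p : ℤ) ^ v * d) * X) →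
          ∀ e : ℕ, (∀ j : ℕ, 1 ≤ j → (p : ℤ) ^ e ∣ H.coeff j) → e ≤ s)) := by
  obtain ⟨R, hR0, hR⟩ := aux_root h hh
  refine ⟨R, hR0, fun p hp => ?_⟩
  have : Fact p.Prime := ⟨hp⟩
  obtain ⟨z, hzu, hz⟩ := aux_unit_root h hint p
  obtain ⟨m, hm1, hm2, G, hG, hGR⟩ := hR p z hz
  have hG0 : G.coeff 0 ≠ 0 := by
    intro h0
    rw [h0, zero_dvd_iff] at hGR
    exact hR0 (by exact_mod_cast hGR)
  obtain ⟨s, hs⟩ : ∃ s : ℕ, s = (G.coeff 0).valuation := ⟨_, rfl⟩
  have hsu := PadicInt.unitCoeff_spec hG0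
  rw [← hs] at hsu
  have hsG : (p : ℤ_[p]) ^ s ∣ G.coeff 0 := by
    rw [hsu]
    exact dvd_mul_left _ _
  have hGs : G.coeff 0 ∣ (p : ℤ_[p]) ^ s := by
    rw [hsu]
    exact Units.mul_left_dvd.2 dvd_rfl
  have hpz : (p : ℤ_[p]) ≠ 0 := by exact_mod_cast hp.ne_zero
  refine ⟨m, s, fun v => (z.appr v : ℤ), hm1, hm2, ?_, ?_, ?_, ?_⟩
  · rw [← PadicInt.pow_p_dvd_int_iff]
    exact hsG.trans hGR
  · intro v hv hd
    have hz1 : (p : ℤ_[p]) ^ v ∣ z - (z.appr v : ℤ_[p]) :=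
      Ideal.mem_span_singleton.1 (PadicInt.appr_spec v z)
    have h1 : (p : ℤ_[p]) ∣ z - (z.appr v : ℤ_[p]) := (dvd_pow_self _ (by omega)).trans hz1
    have h2 : (p : ℤ_[p]) ∣ (z.appr v : ℤ_[p]) := by
      obtain ⟨c, hc⟩ := hd
      refine ⟨(c : ℤ_[p]), ?_⟩
      have h3 := congrArg (fun x : ℤ => (x : ℤ_[p])) hc
      simpa using h3
    have h3 : (p : ℤ_[p]) ∣ z := by simpa using dvd_add h1 h2
    have h4 := (PadicInt.norm_lt_one_iff_dvd z).2 h3
    linarith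
  · intro v w hvw
    have h1 := PadicInt.dvd_appr_sub_appr z v w hvw
    have h2 := PadicInt.appr_mono z hvw
    have h3 : (((p ^ v : ℕ)) : ℤ) ∣ ((z.appr w - z.appr v : ℕ) : ℤ) :=
      Int.natCast_dvd_natCast.2 h1
    rw [Nat.cast_sub h2] at h3
    simpa only [Nat.cast_pow] using h3
  · intro v r d hr hd
    have hz1 : (p : ℤ_[p]) ^ v ∣ z - (z.appr v : ℤ_[p]) :=
      Ideal.mem_span_singleton.1 (PadicInt.appr_spec v z)
    have hr1 : (p : ℤ_[p]) ^ v ∣ ((r - (z.appr v : ℤ) : ℤ) : ℤ_[p]) :=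
      (PadicInt.pow_p_dvd_int_iff v _).2 hr
    obtain ⟨w, hw⟩ : (p : ℤ_[p]) ^ v ∣ (r : ℤ_[p]) - z := by
      have := dvd_sub hr1 hz1
      convert this using 1
      push_cast
      ring
    have hrw : (r : ℤ_[p]) = z + (p : ℤ_[p]) ^ v * w := by rw [← hw]; ring
    obtain ⟨φ, hφ⟩ : ∃ φ : ℤ →+* ℤ_[p], φ = Int.castRingHom ℤ_[p] := ⟨_, rfl⟩
    have hφi : ∀ x : ℤ, φ x = (x : ℤ_[p]) := fun x => by rw [hφ]; rfl
    rw [← hφ] at hz hG
    have hkey : (h.comp (C r + C ((p : ℤ) ^ v * d) * X)).map φ =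
        C ((p : ℤ_[p]) ^ (v * m)) * ((C w + C (d : ℤ_[p]) * X) ^ m *
          G.comp (C ((p : ℤ_[p]) ^ v) * (C w + C (d : ℤ_[p]) * X))) := by
      have h1 : (h.comp (C r + C ((p : ℤ) ^ v * d) * X)).map φ =
          (taylor z (h.map φ)).comp (C ((p : ℤ_[p]) ^ v) * (C w + C (d : ℤ_[p]) * X)) := by
        rw [taylor_apply, comp_assoc, Polynomial.map_comp]
        congr 1
        simp only [Polynomial.map_add, Polynomial.map_mul, map_C, map_X, add_comp, X_comp, C_comp,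
          hφi, Int.cast_pow, Int.cast_natCast, hrw, C_add, C_mul]
        ring
      rw [h1, hG, mul_comp, pow_comp, X_comp, mul_pow, ← C_pow, ← pow_mul]
      ring
    have h2 : ∀ j, (((h.comp (C r + C ((p : ℤ) ^ v * d) * X)).coeff j : ℤ) : ℤ_[p]) =
        ((h.comp (C r + C ((p : ℤ) ^ v * d) * X)).map φ).coeff j := fun j => by
      rw [coeff_map, hφi]
    refine ⟨fun j => ?_, fun hsv j => ?_, ?_⟩
    · rw [← PadicInt.pow_p_dvd_int_iff, h2, hkey, coeff_C_mul]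
      exact dvd_mul_right _ _
    · have h3 : C ((p : ℤ_[p]) ^ s) ∣
          G.comp (C ((p : ℤ_[p]) ^ v) * (C w + C (d : ℤ_[p]) * X)) := by
        conv_rhs => rw [← divX_mul_X_add G]
        rw [add_comp, mul_comp, X_comp, C_comp]
        refine dvd_add (Dvd.dvd.mul_left (Dvd.dvd.mul_right ?_ _) _) (map_dvd C hsG)
        exact map_dvd C (pow_dvd_pow _ hsv)
      obtain ⟨K, hK⟩ := h3
      rw [← PadicInt.pow_p_dvd_int_iff, h2, hkey, hK, coeff_C_mul, pow_add, mul_left_comm,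
        coeff_C_mul]
      exact mul_dvd_mul_left _ (dvd_mul_right _ _)
    · intro u H hu hH e he
      have hp0 : (C ((p : ℤ_[p]) ^ (v * m)) : ℤ_[p][X]) ≠ 0 := by
        rw [Ne, C_eq_zero]
        exact pow_ne_zero _ hpz
      have h3 : C (u : ℤ_[p]) * H.map φ = (C w + C (d : ℤ_[p]) * X) ^ m *
          G.comp (C ((p : ℤ_[p]) ^ v) * (C w + C (d : ℤ_[p]) * X)) := by
        apply mul_left_cancel₀ hp0
        rw [← hkey, ← hH, ← mul_assoc, ← C_mul, Polynomial.map_mul, map_C, hφi]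
        simp only [Int.cast_mul, Int.cast_pow, Int.cast_natCast]
      have hunit : ∀ x : ℤ, ¬ (p : ℤ) ∣ x → IsUnit (x : ℤ_[p]) := by
        intro x hx
        rw [PadicInt.isUnit_iff, PadicInt.norm_intCast_eq_one_iff, isCoprime_comm]
        exact (Nat.prime_iff_prime_int.1 hp).coprime_iff_not_dvd.2 hx
      obtain ⟨di, hdi⟩ := (hunit d hd).exists_right_inv
      have h4 := congrArg (fun q : ℤ_[p][X] => (q.comp (C di * (X - C w))).coeff m) h3
      have h5 : (C w + C (d : ℤ_[p]) * X).comp (C di * (X - C w)) = X := by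
        simp only [add_comp, mul_comp, C_comp, X_comp]
        rw [← mul_assoc, ← C_mul, hdi, C_1]
        ring
      obtain ⟨K, hK⟩ : C ((p : ℤ_[p]) ^ e) ∣ H.map φ - C ((H.map φ).coeff 0) := by
        rw [C_dvd_iff_dvd_coeff]
        intro j
        rcases Nat.eq_zero_or_pos j with hj | hj
        · subst hj
          rw [coeff_sub, coeff_C_zero, sub_self]
          exact dvd_zero _
        · rw [coeff_sub, coeff_C_of_ne_zero hj.ne', sub_zero, coeff_map, hφi,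
            PadicInt.pow_p_dvd_int_iff]
          exact he j hj
      have hK' : H.map φ = C ((H.map φ).coeff 0) + C ((p : ℤ_[p]) ^ e) * K := by
        rw [← hK]; ring
      have hm0 : m ≠ 0 := by omega
      simp only [mul_comp, pow_comp, comp_assoc] at h4
      rw [h5] at h4
      rw [hK'] at h4
      simp only [C_comp, add_comp, mul_comp, coeff_C_mul, coeff_add, coeff_C_of_ne_zero hm0,
        zero_add] at h4
      rw [coeff_X_pow_mul', if_pos le_rfl, Nat.sub_self, coeff_zero_eq_eval_zero, eval_comp,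
        eval_mul, eval_C, eval_X, mul_zero, ← coeff_zero_eq_eval_zero] at h4
      have h6 : (p : ℤ_[p]) ^ e ∣ G.coeff 0 := by
        rw [← h4]
        exact Dvd.dvd.mul_left (dvd_mul_right _ _) _
      have h7 := h6.trans hGs
      exact (pow_dvd_pow_iff hpz (PadicInt.prime_p.not_isUnit)).1 h7

end Vale.Agent.P042P
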