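import Vale.Agent.P042PT.Cont
import Vale.Agent.P042P.Defs

set_option autoImplicit false

/-!
P042, prime arguments: reduction to auxiliary polynomials of content one.
-/

namespace Vale.Agent.P042P

open Polynomial Finset Vale.Agent.P042

/-- passing to a progression: if `L g(x) = h(r0 + d0 x)` then `r_h(N) ≤ L r_g(N)` -/
theorem rMax_le_comp (h : ℤ[X]) (g : PL) (L : ℕ) (hL : 1 ≤ L)
    (hg : C (L : ℤ) * g.toPolynomial = h.comp (C g.u + C g.v * X)) (N : ℕ) :
    rMaxPrime h N ≤ L * rMax g N := by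
  classical
  have hL0 : (0 : ℤ) < L := by exact_mod_cast hL
  unfold rMaxPrime rMax
  refine Finset.sup_le fun A hA => ?_
  rw [mem_filter, mem_powerset] at hA
  obtain ⟨hA1, hA2⟩ := hA
  have h1 : ∀ a ∈ Ico (0 : ℤ) L, (A.filter fun n => (n - 1) % L = a).card ≤
      ((Icc (1 : ℤ) N).powerset.filter (fun A => DiffFree g A)).sup card := by
    intro a _
    obtain ⟨B, hB⟩ : ∃ B : Finset ℤ, B = (A.filter fun n => (n - 1) % L = a).image
      fun n : ℤ => (n - 1) / L + 1 := ⟨_, rfl⟩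
    have hrep : ∀ n ∈ A.filter fun n => (n - 1) % L = a, n = a + 1 + L * ((n - 1) / L) := by
      intro n hn
      have h2 := (mem_filter.1 hn).2
      have h3 := Int.emod_add_mul_ediv (n - 1) L
      omega
    have hc : B.card = (A.filter fun n => (n - 1) % L = a).card := by
      rw [hB]
      refine card_image_of_injOn fun n hn m hm hnm => ?_
      have h2 := hrep n hn
      have h3 := hrep m hm
      have h4 : (n - 1) / L = (m - 1) / L := by
        simp only [add_left_inj] at hnm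
        exact hnm
      rw [h2, h3, h4]
    rw [← hc]
    refine Finset.le_sup (f := card) (mem_filter.2 ⟨mem_powerset.2 ?_, ?_⟩)
    · intro b hb
      rw [hB, mem_image] at hb
      obtain ⟨n, hn, rfl⟩ := hb
      have h2 := mem_Icc.1 (hA1 (mem_filter.1 hn).1)
      have h3 : 0 ≤ (n - 1) / L := Int.ediv_nonneg (by omega) hL0.le
      have h4 : (n - 1) / L ≤ n - 1 := Int.ediv_le_self _ (by omega)
      rw [mem_Icc]
      omega
    · rintro y ⟨hy1, x, hx, ⟨p, hp, hpx⟩, hxy⟩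
      obtain ⟨b1, hb1, b2, hb2, rfl⟩ := Set.mem_sub.1 hy1
      rw [mem_coe, hB, mem_image] at hb1 hb2
      obtain ⟨n, hn, rfl⟩ := hb1
      obtain ⟨m, hm, rfl⟩ := hb2
      have h2 := hrep n hn
      have h3 := hrep m hm
      have h5 := congrArg (eval (x : ℤ)) hg
      simp only [eval_mul, eval_C, eval_comp, eval_add, eval_X] at h5
      have h6 : n - m = h.eval (g.u + g.v * x) := by
        rw [← h5, hxy]
        linear_combination h2 - h3
      have h7 : n - m ∈ ({0} : Set ℤ) := by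
        refine hA2 ⟨Set.mem_sub.2 ⟨n, mem_coe.2 (mem_filter.1 hn).1, m,
          mem_coe.2 (mem_filter.1 hm).1, rfl⟩, p, hp, ?_⟩
        rw [hpx, h6]
      have h8 : n = m := sub_eq_zero.1 h7
      rw [h8]
      exact sub_self _
  have h2 := card_le_mul_card_image_of_maps_to (s := A) (t := Ico (0 : ℤ) L)
    (f := fun n : ℤ => (n - 1) % L) (fun n _ => mem_Ico.2
      ⟨Int.emod_nonneg _ hL0.ne', Int.emod_lt_of_pos _ hL0⟩) _ h1
  rw [Int.card_Ico, sub_zero, Int.toNat_natCast, mul_comm] at h2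
  exact h2

/-- every intersective polynomial has, on a progression, auxiliary polynomials of content one -/
theorem exists_one (h : ℤ[X]) (hk : 1 ≤ h.natDegree) (hpos : 0 < h.leadingCoeff)
    (hint : PrimeIntersective h) (K0 : ℕ) :
    ∃ (g : PL) (lam : ℕ → ℕ) (r : ℕ → ℤ) (H : ℕ → PL) (L : ℕ), AuxData g lam r H 1 ∧
      g.natDegree = h.natDegree ∧ 0 < g.leadingCoeff ∧ 1 ≤ L ∧ 1 ≤ g.v ∧
      (∀ p : ℕ, p.Prime → p ≤ K0 → (p : ℤ) ∣ g.v) ∧
      (∀ d : ℕ, 1 ≤ d → IsCoprime (H d).u (H d).v) ∧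
      ∀ N : ℕ, rMaxPrime h N ≤ L * rMax g N := by
  obtain ⟨lam, r, H, M, d1, hA, hd1, hcop, hM'⟩ := exists_auxU h hk hint
  obtain ⟨d0, hd0e⟩ : ∃ d0 : ℕ, d0 = d1 * K0.factorial := ⟨_, rfl⟩
  have hd0 : 1 ≤ d0 := by
    rw [hd0e]
    exact Nat.mul_pos hd1 K0.factorial_pos
  have hM : ∀ e : ℕ, 1 ≤ e → ∀ j, (M : ℤ) ∣ (H (d0 * e)).coeff j := by
    intro e he j
    rw [hd0e, mul_assoc]
    exact hM' _ (Nat.mul_pos K0.factorial_pos he) j
  have hM1 := hA.hR
  have hM0 : (0 : ℤ) < M := by exact_mod_cast hM1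
  have hd0' : (0 : ℤ) < d0 := by exact_mod_cast hd0
  have HH : ∀ e : ℕ, ∃ K : ℤ[X], 1 ≤ e → C (M : ℤ) * K = H (d0 * e) := by
    intro e
    by_cases he : 1 ≤ e
    · obtain ⟨K, hK⟩ := (C_dvd_iff_dvd_coeff (M : ℤ) (H (d0 * e))).2 (hM e he)
      exact ⟨K, fun _ => hK.symm⟩
    · exact ⟨0, fun he' => absurd he' he⟩
  choose K hK using HH
  have HT : ∀ e : ℕ, ∃ t : ℤ, 1 ≤ e → r (d0 * e) = r d0 + d0 * t := by
    intro e
    by_cases he : 1 ≤ e
    · obtain ⟨t, ht⟩ := hA.hrr d0 e hd0 he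
      exact ⟨t, fun _ => by linarith⟩
    · exact ⟨0, fun he' => absurd he' he⟩
  choose t ht using HT
  have hg : C (M : ℤ) * K 1 = H d0 := by rw [hK 1 le_rfl, mul_one]
  have hl0 := hA.lam_pos d0 hd0
  have hg2 : C ((lam d0 * M : ℕ) : ℤ) * K 1 = h.comp (C (r d0) + C (d0 : ℤ) * X) := by
    rw [← hA.hH d0 hd0, ← hg, Nat.cast_mul, C_mul, mul_assoc]
  have hLM : 1 ≤ lam d0 * M := Nat.mul_pos hl0 hM1
  have hdeg : (K 1).natDegree = h.natDegree := by
    rw [← hA.natDegree_H hk d0 hd0, ← hg, natDegree_C_mul hM0.ne']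
  refine ⟨⟨K 1, r d0, d0⟩, lam, t, fun e => ⟨K e, r d0 + d0 * t e, d0 * e⟩, lam d0 * M,
    ⟨⟨le_rfl, ?_, hA.hmul, ?_, ?_, ?_, ?_⟩, fun _ _ => rfl, fun _ _ => rfl⟩, hdeg, ?_, hLM,
    hd0', ?_, ?_, rMax_le_comp h ⟨K 1, r d0, d0⟩ _ hLM hg2⟩
  · intro e he
    show C (lam e : ℤ) * K e = (K 1).comp _
    have hde : 1 ≤ d0 * e := Nat.mul_pos hd0 he
    have hne : (C ((lam d0 * M : ℕ) : ℤ) : ℤ[X]) ≠ 0 := by
      rw [Ne, C_eq_zero]
      exact_mod_cast (by omega : lam d0 * M ≠ 0)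
    apply mul_left_cancel₀ hne
    have h1 := congrArg (fun q : ℤ[X] => q.comp (C (t e) + C (e : ℤ) * X)) hg2
    simp only [mul_comp, C_comp, comp_assoc, add_comp, X_comp] at h1
    rw [h1]
    have h2 := hA.hH (d0 * e) hde
    rw [← hK e he, hA.hmul d0 e hd0 he, ht e he] at h2
    have h3 : C (r d0) + C (d0 : ℤ) * (C (t e) + C (e : ℤ) * X) =
        C (r d0 + d0 * t e) + C ((d0 * e : ℕ) : ℤ) * X := by
      simp only [Nat.cast_mul, C_add, C_mul]
      ring
    rw [h3, ← h2]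
    simp only [Nat.cast_mul, C_mul]
    ring
  · intro e he
    show e ∣ lam e ∧ lam e ∣ e ^ (K 1).natDegree
    rw [hdeg]
    exact hA.hdvd e he
  · intro e he
    have hde : 1 ≤ d0 * e := Nat.mul_pos hd0 he
    obtain ⟨h1, h2⟩ := hA.hr (d0 * e) hde
    obtain ⟨h3, h4⟩ := hA.hr d0 hd0
    rw [ht e he] at h1 h2
    push_cast at h1
    constructor
    · by_contra hcon
      have h5 : t e ≤ -(e : ℤ) := by omega
      nlinarith
    · by_contra hcon
      have h5 : 1 ≤ t e := by omega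
      nlinarith
  · intro e q he hq
    have hde : 1 ≤ d0 * e := Nat.mul_pos hd0 he
    have heq : 1 ≤ e * q := Nat.mul_pos he hq
    have h1 := hA.hrr (d0 * e) q hde hq
    rw [mul_assoc, ht _ heq, ht e he, Nat.cast_mul] at h1
    have h2 : r d0 + d0 * t (e * q) - (r d0 + d0 * t e) = d0 * (t (e * q) - t e) := by ring
    rw [h2] at h1
    exact (mul_dvd_mul_iff_left hd0'.ne').1 h1
  · intro e he g hgd
    have hde : 1 ≤ d0 * e := Nat.mul_pos hd0 he
    have h1 := hA.hgcd (d0 * e) hde (M * g) fun j hj => by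
      rw [← hK e he, coeff_C_mul]
      exact mul_dvd_mul_left _ (hgd j hj)
    have h2 : (M : ℤ) * g ∣ M * 1 := by rwa [mul_one]
    exact_mod_cast (mul_dvd_mul_iff_left hM0.ne').1 h2
  · have h1 := hA.lead_pos hk hpos d0 hd0
    rw [← hg, leadingCoeff_mul, leadingCoeff_C] at h1
    exact (mul_pos_iff_of_pos_left hM0).1 h1
  · intro p hp hpK
    show (p : ℤ) ∣ (d0 : ℤ)
    rw [hd0e]
    exact_mod_cast ((hp.dvd_factorial).2 hpK).mul_left d1
  · intro e he
    have h1 := hcop (d0 * e) (Nat.mul_pos hd0 he)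
    rw [ht e he, Nat.cast_mul] at h1
    exact h1

end Vale.Agent.P042P
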